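import Vale.Agent.P212H52.Rows
import Mathlib.Analysis.InnerProductSpace.GramSchmidtOrtho
import Mathlib.Analysis.InnerProductSpace.ProdL2

/-! Fibrewise stabilisation, by Gram-Schmidt in `H t ⊕ l^2`. -/

namespace Vale.Agent.P212H26

open Vale.Agent.P212 Vale.Agent.P212Z Vale.Agent.P212H ContinuousLinearMap InnerProductSpace
open Filter
open scoped ComplexOrder Topology

noncomputable section

section field

variable {T : Type} [TopologicalSpace T] {K : T → Type} [∀ t, NormedAddCommGroup (K t)]
  [∀ t, InnerProductSpace ℂ (K t)] {S : AddSubgroup (∀ t, K t)}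

theorem cont_norm (hi : ∀ s ∈ S, ∀ s' ∈ S, Continuous fun t => inner ℂ (s t) (s' t))
    {s : ∀ t, K t} (hs : s ∈ S) : Continuous fun t => ‖s t‖ := by
  simp only [norm_eq_sqrt_re_inner (𝕜 := ℂ)]
  exact (RCLike.continuous_re.comp (hi s hs s hs)).sqrt

theorem gs_mem (hi : ∀ s ∈ S, ∀ s' ∈ S, Continuous fun t => inner ℂ (s t) (s' t))
    (hm : ∀ b : T → ℂ, Continuous b → ∀ s ∈ S, (fun t => b t • s t) ∈ S)
    {y : ℕ → ∀ t, K t} (hy : ∀ n, y n ∈ S) (hl : ∀ t, LinearIndependent ℂ fun n => y n t)
    (n : ℕ) : (fun t => gramSchmidtNormed ℂ (fun n => y n t) n) ∈ S := by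
  have hn : ∀ n t, ((‖gramSchmidt ℂ (fun n => y n t) n‖ : ℝ) : ℂ) ≠ 0 := fun n t =>
    Complex.ofReal_ne_zero.2 (norm_ne_zero_iff.2 (gramSchmidt_ne_zero n (hl t)))
  have h : ∀ n, (fun t => gramSchmidt ℂ (fun n => y n t) n) ∈ S := by
    intro n
    induction n using Nat.strong_induction_on with
    | _ n ih =>
      have h1 : (fun t => gramSchmidt ℂ (fun n => y n t) n) = y n - ∑ i ∈ Finset.Iio n,
          fun t => (inner ℂ (gramSchmidt ℂ (fun n => y n t) i) (y n t) /
            ((‖gramSchmidt ℂ (fun n => y n t) i‖ : ℝ) : ℂ) ^ 2) •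
              gramSchmidt ℂ (fun n => y n t) i := by
        funext t
        rw [Pi.sub_apply, Finset.sum_apply, eq_sub_iff_add_eq]
        exact (gramSchmidt_def'' ℂ (fun n => y n t) n).symm
      rw [h1]
      refine S.sub_mem (hy n) (S.sum_mem fun i hi' => ?_)
      have h2 := ih i (Finset.mem_Iio.1 hi')
      exact hm _ ((hi _ h2 _ (hy n)).div
        ((Complex.continuous_ofReal.comp (cont_norm hi h2)).pow 2)
        fun t => pow_ne_zero 2 (hn i t)) _ h2
  exact hm _ ((Complex.continuous_ofReal.comp (cont_norm hi (h n))).inv₀ (hn n)) _ (h n)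

end field

/-- coordinates and norm continuous: continuous -/
theorem cont_of_coord {T L : Type} [TopologicalSpace T] [CompactSpace T] [NormedAddCommGroup L]
    [InnerProductSpace ℂ L] (e : HilbertBasis ℕ ℂ L) {F : T → L}
    (h1 : ∀ n, Continuous fun t => inner ℂ (e n) (F t)) (h2 : Continuous fun t => ‖F t‖) :
    Continuous F := by
  obtain ⟨C, hC⟩ := (isCompact_range h2).bddAbove
  have hC' : ∀ t, ‖F t‖ ≤ |C| + 1 := fun t =>
    (hC ⟨t, rfl⟩).trans ((le_abs_self C).trans (by linarith))
  have hw : ∀ v : L, Continuous fun t => inner ℂ v (F t) := by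
    intro v
    refine continuous_of_uniform_approx_of_continuous fun u hu => ?_
    obtain ⟨ε, hε, hu⟩ := Metric.mem_uniformity_dist.1 hu
    have hv : v ∈ closure (Submodule.span ℂ (Set.range e) : Set L) := by
      rw [← Submodule.topologicalClosure_coe, e.dense_span]
      trivial
    obtain ⟨a, ha, hd⟩ := Metric.mem_closure_iff.1 hv (ε / (|C| + 1)) (by positivity)
    refine ⟨fun t => inner ℂ a (F t), ?_, fun t => hu ?_⟩
    · clear hd
      induction ha using Submodule.span_induction with
      | mem x hx => obtain ⟨n, rfl⟩ := hx; exact h1 n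
      | zero => simpa using continuous_const
      | add x y _ _ hx hy => simp only [inner_add_left]; exact hx.add hy
      | smul c x _ hx => simp only [inner_smul_left]; exact continuous_const.mul hx
    · rw [dist_eq_norm, ← inner_sub_left]
      rw [dist_eq_norm, lt_div_iff₀ (by positivity)] at hd
      exact ((norm_inner_le_norm _ _).trans
        (mul_le_mul_of_nonneg_left (hC' t) (norm_nonneg _))).trans_lt hd
  refine continuous_iff_continuousAt.2 fun s => tendsto_iff_norm_sub_tendsto_zero.2 ?_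
  have h3 : Continuous fun t => √(‖F s‖ ^ 2 - 2 * RCLike.re (inner ℂ (F s) (F t)) + ‖F t‖ ^ 2) :=
    ((continuous_const.sub (continuous_const.mul (RCLike.continuous_re.comp (hw (F s))))).add
      (h2.pow 2)).sqrt
  have h4 := h3.tendsto s
  simp only [← norm_sub_sq (𝕜 := ℂ), Real.sqrt_sq (norm_nonneg _)] at h4
  rw [sub_self, norm_zero] at h4
  simpa only [norm_sub_rev] using h4

theorem stab : STAB := by
  intro E _ _ _ _ hg H _ _ _ π hd hi
  obtain ⟨x, hx⟩ := hg
  let e : HilbertBasis ℕ ℂ (L2 ℕ) := default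
  have hb : ∀ t (b : CI) (z : E), π t (b • z) = b t • π t z := fun t b z =>
    (hd t).eq_of_inner_right (𝕜 := ℂ) fun v => by
      rw [inner_smul_right, hi, hi, CStarModule.inner_op_smul_right]
      rfl
  have hc : ∀ t, Continuous (π t) := fun t =>
    AddMonoidHomClass.continuous_of_bound (π t) 1 fun z => by
      rw [one_mul, norm_eq_sqrt_re_inner (𝕜 := ℂ), hi,
        CStarModule.norm_eq_sqrt_norm_inner_self (A := CI) z]
      exact Real.sqrt_le_sqrt ((RCLike.re_le_norm _).trans
        (ContinuousMap.norm_coe_le_norm (inner CI z z) t))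
  let K : unitInterval → Type := fun t => WithLp 2 (H t × L2 ℕ)
  let S : AddSubgroup (∀ t, K t) :=
    { carrier := {s | ∃ (z : E) (g : unitInterval → L2 ℕ), Continuous g ∧
        ∀ t, s t = WithLp.toLp 2 (π t z, g t)}
      zero_mem' := ⟨0, 0, continuous_const, fun t => by rw [map_zero]; rfl⟩
      add_mem' := by
        rintro s s' ⟨z, g, h1, h2⟩ ⟨z', g', h3, h4⟩
        exact ⟨z + z', g + g', h1.add h3, fun t => by
          rw [Pi.add_apply, h2, h4, map_add]; rfl⟩
      neg_mem' := by
        rintro s ⟨z, g, h1, h2⟩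
        exact ⟨-z, -g, h1.neg, fun t => by rw [Pi.neg_apply, h2, map_neg]; rfl⟩ }
  have hS : ∀ s ∈ S, ∀ s' ∈ S, Continuous fun t => inner ℂ (s t) (s' t) := by
    rintro s ⟨z, g, h1, h2⟩ s' ⟨z', g', h3, h4⟩
    refine ((inner CI z z').continuous.add (h1.inner (𝕜 := ℂ) h3)).congr fun t => ?_
    rw [h2, h4, Pi.add_apply, ← hi]
    rfl
  have hm : ∀ b : unitInterval → ℂ, Continuous b → ∀ s ∈ S, (fun t => b t • s t) ∈ S := by
    rintro b h0 s ⟨z, g, h1, h2⟩
    exact ⟨(⟨b, h0⟩ : CI) • z, fun t => b t • g t, h0.smul h1, fun t => by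
      beta_reduce
      rw [h2, hb]; rfl⟩
  let y : ℕ → ∀ t, K t := fun n t =>
    WithLp.toLp 2 (π t (((n : ℂ) + 1) • x (Nat.unpair n).1), e n)
  have hy : ∀ n, y n ∈ S := fun n => ⟨_, fun _ => e n, continuous_const, fun _ => rfl⟩
  have hl : ∀ t, LinearIndependent ℂ fun n => y n t := fun t =>
    LinearIndependent.of_comp
      ((LinearMap.snd ℂ (H t) (L2 ℕ)).comp (WithLp.linearEquiv 2 ℂ (H t × L2 ℕ)).toLinearMap)
      e.orthonormal.linearIndependent
  have ht : ∀ t, (Submodule.span ℂ (Set.range (gramSchmidtNormed ℂ fun n => y n t)))ᗮ = ⊥ := by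
    intro t
    rw [span_gramSchmidtNormed_range, span_gramSchmidt, eq_bot_iff]
    intro v hv
    have h1 : ∀ n : ℕ, ((n : ℂ) + 1) * inner ℂ (WithLp.ofLp v).1 (π t (x (Nat.unpair n).1))
        + inner ℂ (WithLp.ofLp v).2 (e n) = 0 := by
      intro n
      have h2 := (Submodule.mem_orthogonal' _ _).1 hv _ (Submodule.subset_span ⟨n, rfl⟩)
      rw [← inner_smul_right, ← map_smul]
      exact h2
    have h2 : ∀ k, inner ℂ (WithLp.ofLp v).1 (π t (x k)) = 0 := by
      intro k
      by_contra hne
      obtain ⟨m, hm⟩ := exists_nat_gt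
        (‖(WithLp.ofLp v).2‖ / ‖inner ℂ (WithLp.ofLp v).1 (π t (x k))‖)
      rw [div_lt_iff₀ (norm_pos_iff.2 hne)] at hm
      have h3 := h1 (Nat.pair k m)
      rw [Nat.unpair_pair, add_eq_zero_iff_eq_neg] at h3
      have h4 := congrArg norm h3
      rw [norm_mul, norm_neg] at h4
      have h5 := norm_inner_le_norm (𝕜 := ℂ) (WithLp.ofLp v).2 (e (Nat.pair k m))
      rw [e.orthonormal.1, mul_one, ← h4] at h5
      have h6 : (m : ℝ) ≤ ‖((Nat.pair k m : ℕ) : ℂ) + 1‖ := by
        rw [← Nat.cast_succ, Complex.norm_natCast]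
        exact Nat.cast_le.2 ((Nat.right_le_pair k m).trans (Nat.le_succ _))
      exact (hm.trans_le (mul_le_mul_of_nonneg_right h6 (norm_nonneg _))).not_ge h5
    have h3 : (WithLp.ofLp v).2 = 0 := by
      refine e.repr.injective (lp.ext (funext fun n => ?_))
      have h4 := h1 n
      rw [h2, mul_zero, zero_add, inner_eq_zero_symm] at h4
      rw [e.repr_apply_apply, e.repr_apply_apply, h4, inner_zero_right]
    have h4 : (WithLp.ofLp v).1 = 0 := by
      refine (hd t).eq_zero_of_inner_left (𝕜 := ℂ) fun z => ?_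
      refine Dense.induction (P := fun z => inner ℂ (WithLp.ofLp v).1 (π t z) = 0) hx
        (fun a ha => ?_) (isClosed_eq (continuous_const.inner (hc t)) continuous_const) z
      induction ha using Submodule.span_induction with
      | mem a ha =>
        obtain ⟨b, n, rfl⟩ := ha
        rw [hb, inner_smul_right, h2, mul_zero]
      | zero => rw [map_zero, inner_zero_right]
      | add a b _ _ ha hb => rw [map_add, inner_add_right, ha, hb, add_zero]
      | smul c a _ ha => rw [map_smul, inner_smul_right, ha, mul_zero]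
    exact (WithLp.ofLp_injective 2) (Prod.ext h4 h3)
  let f : ∀ t, HilbertBasis ℕ ℂ (K t) := fun t =>
    HilbertBasis.mkOfOrthogonalEqBot (gramSchmidtNormed_orthonormal (hl t)) (ht t)
  have hf : ∀ n, (fun t => f t n) ∈ S := fun n => by
    have h := gs_mem hS hm hy hl n
    convert h using 2 with t
    exact congrFun (HilbertBasis.coe_mkOfOrthogonalEqBot _ (ht t)) n
  let j : ∀ t, H t →L[ℂ] K t := fun t =>
    (WithLp.prodContinuousLinearEquiv 2 ℂ (H t) (L2 ℕ)).symm.toContinuousLinearMap ∘L inl ℂ _ _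
  let U : ∀ t, K t ≃ₗᵢ[ℂ] L2 ℕ := fun t => (f t).repr.trans e.repr.symm
  have hU : ∀ t n v, inner ℂ (e n) (U t v) = inner ℂ (f t n) v := fun t n v => by
    rw [← e.repr_apply_apply, ← (f t).repr_apply_apply]
    exact congrArg (fun a => a n) (e.repr.apply_symm_apply _)
  have hj : ∀ z : E, (fun t => j t (π t z)) ∈ S := fun z => ⟨z, 0, continuous_const, fun _ => rfl⟩
  choose z g hg hz using hf
  refine ⟨fun t => (U t).toContinuousLinearEquiv.toContinuousLinearMap ∘L j t, fun n _ => e n, z,
    fun t => (inner_map_map_iff_adjoint_comp_self _).1 fun a b => ?_, fun a => ?_,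
    fun n => continuous_const, fun t => ?_, fun n t => ext_inner_right ℂ fun a => ?_⟩
  · refine ((U t).inner_map_map (j t a) (j t b)).trans ?_
    change inner ℂ a b + inner ℂ (0 : L2 ℕ) 0 = _
    rw [inner_zero_left, add_zero]
  · refine cont_of_coord e (fun n => (hS _ ⟨z n, g n, hg n, hz n⟩ _ (hj a)).congr
      fun t => (hU t n _).symm) ((cont_norm hS (hj a)).congr fun t => ((U t).norm_map _).symm)
  · exact Submodule.dense_iff_topologicalClosure_eq_top.2 e.dense_span
  · rw [adjoint_inner_left]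
    refine (hU t n (j t a)).trans ?_
    rw [show f t n = _ from hz n t]
    change inner ℂ (π t (z n)) a + inner ℂ (g n t) (0 : L2 ℕ) = _
    rw [inner_zero_right, add_zero]

end

end Vale.Agent.P212H26
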